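import Vale.Agent.P039.Sk.HamSol

/-! A perfect matching of a web whose complement is connected gives a Hamiltonian cycle. -/

namespace Vale.Agent.P039.H940

open Vale.Agent.P039.Sk

variable {B W : Type}

/-- the edges which are not chosen by `μ` -/
def ME (X : Web B W) (μ : B → Fin 3) (x y : B ⊕ W) : Prop :=
  ∃ i b, i ≠ μ b ∧ x = Sum.inl b ∧ y = Sum.inr (X.e i b)

/-- the graph of the edges which are not chosen by `μ` -/
def MG (X : Web B W) (μ : B → Fin 3) : SimpleGraph (B ⊕ W) := SimpleGraph.fromRel (ME X μ)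

theorem exists_white [Finite B] {X : Web B W} {μ : B → Fin 3}
    (hinj : Function.Injective fun b => X.e (μ b) b) (w : W) :
    ∃ b, X.e (μ b) b = w := by
  have h1 : Function.Injective fun b => (X.e 0).symm (X.e (μ b) b) := fun a b h =>
    hinj ((X.e 0).symm.injective h)
  obtain ⟨b, hb⟩ := (Finite.injective_iff_surjective.1 h1) ((X.e 0).symm w)
  exact ⟨b, (X.e 0).symm.injective hb⟩

/-- the colour of the matching edge at a white vertex -/
theorem exists_wcol [Finite B] {X : Web B W} {μ : B → Fin 3}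
    (hinj : Function.Injective fun b => X.e (μ b) b) (w : W) :
    ∃ k, ∀ i, i ≠ μ ((X.e i).symm w) ↔ i ≠ k := by
  obtain ⟨b, hb⟩ := exists_white hinj w
  refine ⟨μ b, fun i => ⟨?_, ?_⟩⟩
  · rintro h rfl
    apply h
    rw [← hb, Equiv.symm_apply_apply]
  · rintro h h'
    apply h
    have h1 : X.e (μ ((X.e i).symm w)) ((X.e i).symm w) = X.e (μ b) b := by
      rw [← h', Equiv.apply_symm_apply, hb]
    have h2 := hinj h1
    rw [h', h2]

theorem black_ne [Finite B] {X : Web B W} {μ : B → Fin 3} (hN : ∃ b b' : B, b ≠ b')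
    (hinj : Function.Injective fun b => X.e (μ b) b)
    (hconn : ∀ x y, Relation.EqvGen (ME X μ) x y) (b : B) :
    X.e (μ b + 1) b ≠ X.e (μ b + 2) b := by
  intro hp
  obtain ⟨b', hb'⟩ : ∃ b', b' ≠ b := by
    obtain ⟨b1, b2, h12⟩ := hN
    by_cases h : b1 = b
    · exact ⟨b2, fun h' => h12 (h.trans h'.symm)⟩
    · exact ⟨b1, h⟩
  have hw : ∀ i b'', i ≠ μ b'' → X.e i b'' = X.e (μ b + 2) b → b'' = b := by
    intro i b'' hi he
    obtain ⟨k', hk'⟩ := exists_wcol hinj (X.e (μ b + 2) b)
    have e1 : (X.e (μ b + 1)).symm (X.e (μ b + 2) b) = b := by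
      rw [Equiv.symm_apply_eq, hp]
    have e2 : (X.e (μ b + 2)).symm (X.e (μ b + 2) b) = b := by rw [Equiv.symm_apply_apply]
    have q1 : μ b + 1 ≠ k' := (hk' _).1 (by rw [e1]; exact fne1 _)
    have q2 : μ b + 2 ≠ k' := (hk' _).1 (by rw [e2]; exact fne2 _)
    have e3 : (X.e i).symm (X.e (μ b + 2) b) = b'' := by rw [← he, Equiv.symm_apply_apply]
    have q3 : i ≠ k' := (hk' _).1 (by rw [e3]; exact hi)
    rcases fcase k' (μ b) with h | h | h
    · rcases fcase i (μ b) with h' | h' | h'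
      · exact absurd (h'.trans h.symm) q3
      · rw [← e3, h', e1]
      · rw [← e3, h', e2]
    · exact absurd h.symm q1
    · exact absurd h.symm q2
  have hP : ∀ x y, ME X μ x y →
      ((x = Sum.inl b ∨ x = Sum.inr (X.e (μ b + 2) b)) ↔
        (y = Sum.inl b ∨ y = Sum.inr (X.e (μ b + 2) b))) := by
    rintro x y ⟨i, b'', hi, rfl, rfl⟩
    constructor
    · rintro (h3 | h3)
      · have h3 : b'' = b := Sum.inl_injective h3
        subst h3
        right
        rcases fcase i (μ b'') with h' | h' | h'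
        · exact absurd h' hi
        · rw [h', hp]
        · rw [h']
      · cases h3
    · rintro (h3 | h3)
      · cases h3
      · left
        rw [hw i b'' hi (Sum.inr_injective h3)]
  have := (eqvGen_iff (P := fun x => x = Sum.inl b ∨ x = Sum.inr (X.e (μ b + 2) b)) hP
    (hconn (Sum.inl b) (Sum.inl b'))).1 (Or.inl rfl)
  rcases this with h3 | h3
  · exact hb' (Sum.inl_injective h3)
  · cases h3

theorem white_ne [Finite B] {X : Web B W} {μ : B → Fin 3} (hN : ∃ b b' : B, b ≠ b')
    (hinj : Function.Injective fun b => X.e (μ b) b)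
    (hconn : ∀ x y, Relation.EqvGen (ME X μ) x y) {w : W} {k : Fin 3}
    (hk : ∀ i, i ≠ μ ((X.e i).symm w) ↔ i ≠ k) :
    (X.e (k + 1)).symm w ≠ (X.e (k + 2)).symm w := by
  intro hp
  have h1 := (hk (k + 1)).2 (fne1 k)
  have h2 := (hk (k + 2)).2 (fne2 k)
  have h3 : μ ((X.e (k + 2)).symm w) = k := by
    rw [hp] at h1
    rcases fcase (μ ((X.e (k + 2)).symm w)) k with h | h | h
    · exact h
    · exact absurd h.symm h1
    · exact absurd h.symm h2
  have h4 := black_ne hN hinj hconn ((X.e (k + 2)).symm w)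
  rw [h3] at h4
  apply h4
  rw [Equiv.apply_symm_apply, ← hp, Equiv.apply_symm_apply]

theorem mg_adj_black {X : Web B W} {μ : B → Fin 3} {b : B} {y : B ⊕ W} :
    (MG X μ).Adj (Sum.inl b) y ↔ ∃ i, i ≠ μ b ∧ y = Sum.inr (X.e i b) := by
  rw [MG, SimpleGraph.fromRel_adj]
  constructor
  · rintro ⟨_, ⟨i, b', hi, hx, hy⟩ | ⟨i, b', hi, hx, hy⟩⟩
    · have : b' = b := (Sum.inl_injective hx).symm
      subst this
      exact ⟨i, hi, hy⟩
    · cases hy
  · rintro ⟨i, hi, rfl⟩
    exact ⟨by simp, Or.inl ⟨i, b, hi, rfl, rfl⟩⟩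

theorem mg_adj_white {X : Web B W} {μ : B → Fin 3} {w : W} {y : B ⊕ W} :
    (MG X μ).Adj (Sum.inr w) y ↔
      ∃ i, i ≠ μ ((X.e i).symm w) ∧ y = Sum.inl ((X.e i).symm w) := by
  rw [MG, SimpleGraph.fromRel_adj]
  constructor
  · rintro ⟨_, ⟨i, b', hi, hx, hy⟩ | ⟨i, b', hi, hx, hy⟩⟩
    · cases hx
    · have : w = X.e i b' := Sum.inr_injective hy
      subst this
      refine ⟨i, ?_, ?_⟩
      · rw [Equiv.symm_apply_apply]; exact hi
      · rw [Equiv.symm_apply_apply]; exact hx
  · rintro ⟨i, hi, rfl⟩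
    exact ⟨by simp, Or.inr ⟨i, _, hi, rfl, by rw [Equiv.apply_symm_apply]⟩⟩

theorem mg_isCycles [Finite B] {X : Web B W} {μ : B → Fin 3} (hN : ∃ b b' : B, b ≠ b')
    (hinj : Function.Injective fun b => X.e (μ b) b)
    (hconn : ∀ x y, Relation.EqvGen (ME X μ) x y) : (MG X μ).IsCycles := by
  intro v _
  rw [Set.ncard_eq_two]
  rcases v with b | w
  · refine ⟨Sum.inr (X.e (μ b + 1) b), Sum.inr (X.e (μ b + 2) b), ?_, ?_⟩
    · exact fun hh => black_ne hN hinj hconn b (Sum.inr_injective hh)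
    · ext y
      rw [SimpleGraph.mem_neighborSet, mg_adj_black, Set.mem_insert_iff, Set.mem_singleton_iff]
      constructor
      · rintro ⟨i, hi, rfl⟩
        rcases fcase i (μ b) with h | h | h
        · exact absurd h hi
        · exact Or.inl (by rw [h])
        · exact Or.inr (by rw [h])
      · rintro (rfl | rfl)
        · exact ⟨_, fne1 _, rfl⟩
        · exact ⟨_, fne2 _, rfl⟩
  · obtain ⟨k, hk⟩ := exists_wcol hinj w
    refine ⟨Sum.inl ((X.e (k + 1)).symm w), Sum.inl ((X.e (k + 2)).symm w), ?_, ?_⟩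
    · exact fun hh => white_ne hN hinj hconn hk (Sum.inl_injective hh)
    · ext y
      rw [SimpleGraph.mem_neighborSet, mg_adj_white, Set.mem_insert_iff, Set.mem_singleton_iff]
      constructor
      · rintro ⟨i, hi, rfl⟩
        rcases fcase i k with h | h | h
        · exact absurd h ((hk i).1 hi)
        · exact Or.inl (by rw [h])
        · exact Or.inr (by rw [h])
      · rintro (rfl | rfl)
        · exact ⟨_, (hk _).2 (fne1 _), rfl⟩
        · exact ⟨_, (hk _).2 (fne2 _), rfl⟩

theorem mg_reachable {X : Web B W} {μ : B → Fin 3}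
    (hconn : ∀ x y, Relation.EqvGen (ME X μ) x y) (x y : B ⊕ W) : (MG X μ).Reachable x y := by
  have : ∀ x y, Relation.EqvGen (ME X μ) x y → (MG X μ).Reachable x y := by
    intro x y hxy
    induction hxy with
    | rel x y hxy =>
      refine SimpleGraph.Adj.reachable ?_
      obtain ⟨i, b, hi, rfl, rfl⟩ := hxy
      exact mg_adj_black.2 ⟨i, hi, rfl⟩
    | refl x => exact SimpleGraph.Reachable.refl x
    | symm x y _ ih => exact ih.symm
    | trans x y z _ _ ih1 ih2 => exact ih1.trans ih2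
  exact this x y (hconn x y)

theorem mg_le {X : Web B W} {μ : B → Fin 3} : MG X μ ≤ X.graph := by
  intro x y hxy
  rw [MG, SimpleGraph.fromRel_adj] at hxy
  rw [Web.graph, SimpleGraph.fromRel_adj]
  refine ⟨hxy.1, ?_⟩
  rcases hxy.2 with ⟨i, b, _, rfl, rfl⟩ | ⟨i, b, _, rfl, rfl⟩
  · exact Or.inl ⟨i, b, rfl, rfl⟩
  · exact Or.inr ⟨i, b, rfl, rfl⟩

/-- A perfect matching (the edge of colour `μ b` at every black vertex `b`) whose complement is
connected gives a Hamiltonian cycle. -/
theorem ham_of_matching [Fintype B] [Fintype W] [DecidableEq B] [DecidableEq W] (X : Web B W)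
    (hN : ∃ b b' : B, b ≠ b') (μ : B → Fin 3)
    (hinj : Function.Injective fun b => X.e (μ b) b)
    (hconn : ∀ x y, Relation.EqvGen (ME X μ) x y) :
    X.graph.IsHamiltonian := by
  have h0 : ∃ a, ∃ p : X.graph.Walk a a, p.IsHamiltonianCycle := by
    have hN' := hN
    obtain ⟨b, -, -⟩ := hN'
    have hn : ((MG X μ).neighborSet (Sum.inl b)).Nonempty :=
      ⟨Sum.inr (X.e (μ b + 1) b), mg_adj_black.2 ⟨_, fne1 _, rfl⟩⟩
    obtain ⟨p, hp, hv⟩ :=
      (mg_isCycles hN hinj hconn).exists_cycle_toSubgraph_verts_eq_connectedComponentSupp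
        (c := (MG X μ).connectedComponentMk (Sum.inl b)) (v := Sum.inl b) rfl hn
    have hall : ∀ a, a ∈ p.support := by
      intro a
      rw [← SimpleGraph.Walk.mem_verts_toSubgraph, hv]
      exact SimpleGraph.ConnectedComponent.eq.2 (mg_reachable hconn _ _)
    refine ⟨Sum.inl b, p.mapLe mg_le, ?_⟩
    rw [SimpleGraph.Walk.isHamiltonianCycle_iff_isCycle_and_support_count_tail_eq_one]
    refine ⟨hp.mapLe _, fun a => ?_⟩
    rw [SimpleGraph.Walk.support_mapLe_eq_support]
    refine hsol_count hp.support_nodup ?_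
    have ha := hall a
    rw [SimpleGraph.Walk.mem_support_iff] at ha
    rcases ha with rfl | ha
    · exact SimpleGraph.Walk.end_mem_tail_support hp.not_nil
    · exact ha
  intro _
  exact h0

/-- The same for a graph isomorphic to the graph of the web. -/
theorem ham_of_matching_iso [Finite B] {V : Type*} [Fintype V] [DecidableEq V]
    {G : SimpleGraph V} (X : Web B W) (φ : X.graph ≃g G)
    (hN : ∃ b b' : B, b ≠ b') (μ : B → Fin 3)
    (hinj : Function.Injective fun b => X.e (μ b) b)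
    (hconn : ∀ x y, Relation.EqvGen (ME X μ) x y) :
    G.IsHamiltonian := by
  classical
  have : Fintype B := Fintype.ofFinite B
  have : Finite W := Finite.of_equiv B (X.e 0)
  have : Fintype W := Fintype.ofFinite W
  have hH := ham_of_matching X hN μ hinj hconn
  intro hV
  have hcV : Fintype.card (B ⊕ W) ≠ 1 := by
    rw [Fintype.card_congr φ.toEquiv]; exact hV
  obtain ⟨a, p, hp⟩ := hH hcV
  exact ⟨φ a, p.map φ.toHom, hp.map φ.bijective⟩

end Vale.Agent.P039.H940
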