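import Vale.Agent.P039.Bn.H940.Ham

/-! Connectivity of the complement of a matching in the form of closed sets. -/

namespace Vale.Agent.P039.H940

open Vale.Agent.P039.Sk

variable {B W : Type}

theorem exists_edge [Finite B] {X : Web B W} {μ : B → Fin 3}
    (hinj : Function.Injective fun b => X.e (μ b) b) (w : W) :
    ∃ i b, i ≠ μ b ∧ X.e i b = w := by
  obtain ⟨k, hk⟩ := exists_wcol hinj w
  exact ⟨k + 1, (X.e (k + 1)).symm w, (hk _).2 (fne1 k), Equiv.apply_symm_apply _ _⟩

/-- The complement of the matching is connected if every nonempty set closed under its edges is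
everything. -/
theorem conn_of_closed [Finite B] (X : Web B W) (μ : B → Fin 3)
    (hinj : Function.Injective fun b => X.e (μ b) b)
    (h : ∀ (S : Set B) (T : Set W), (∀ b j, j ≠ μ b → (b ∈ S ↔ X.e j b ∈ T)) → S.Nonempty →
      ∀ b, b ∈ S) (x y : B ⊕ W) : Relation.EqvGen (ME X μ) x y := by
  let S : Set B := {b | Relation.EqvGen (ME X μ) x (Sum.inl b)}
  let T : Set W := {w | Relation.EqvGen (ME X μ) x (Sum.inr w)}
  have hcl : ∀ b j, j ≠ μ b → (b ∈ S ↔ X.e j b ∈ T) := by
    intro b j hj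
    have h1 : Relation.EqvGen (ME X μ) (Sum.inl b) (Sum.inr (X.e j b)) :=
      Relation.EqvGen.rel _ _ ⟨j, b, hj, rfl, rfl⟩
    exact ⟨fun h2 => Relation.EqvGen.trans _ _ _ h2 h1,
      fun h2 => Relation.EqvGen.trans _ _ _ h2 (Relation.EqvGen.symm _ _ h1)⟩
  have hne : S.Nonempty := by
    rcases x with b | w
    · exact ⟨b, Relation.EqvGen.refl _⟩
    · obtain ⟨i, b, hi, hb⟩ := exists_edge hinj w
      exact ⟨b, (hcl b i hi).2 (by rw [hb]; exact Relation.EqvGen.refl _)⟩
  have hall := h S T hcl hne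
  rcases y with b | w
  · exact hall b
  · obtain ⟨i, b, hi, hb⟩ := exists_edge hinj w
    have := (hcl b i hi).1 (hall b)
    rw [hb] at this
    exact this

theorem closed_of_conn (X : Web B W) (μ : B → Fin 3)
    (hconn : ∀ x y, Relation.EqvGen (ME X μ) x y) (S : Set B) (T : Set W)
    (hcl : ∀ b j, j ≠ μ b → (b ∈ S ↔ X.e j b ∈ T)) (hne : S.Nonempty) (b : B) : b ∈ S := by
  obtain ⟨b0, hb0⟩ := hne
  have hP : ∀ x y, ME X μ x y → (Sum.elim (fun b => b ∈ S) (fun w => w ∈ T) x ↔
      Sum.elim (fun b => b ∈ S) (fun w => w ∈ T) y) := by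
    rintro x y ⟨i, b', hi, rfl, rfl⟩
    exact hcl b' i hi
  exact (eqvGen_iff hP (hconn (Sum.inl b0) (Sum.inl b))).1 hb0

end Vale.Agent.P039.H940
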