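import Vale.Agent.P039.Bn.H940.Fin

/-! Connectivity of the complement of a matching, seen from the white vertices. -/

namespace Vale.Agent.P039.H940

open Vale.Agent.P039.Sk

variable {B W : Type}

/-- The complement of the matching is connected if every function of the white vertices which is
constant along its paths of length two is constant. -/
theorem conn_of_white [Finite B] (X : Web B W) (μ : B → Fin 3)
    (hinj : Function.Injective fun b => X.e (μ b) b)
    (h : ∀ x : W → Prop, (∀ b i j, i ≠ μ b → j ≠ μ b → (x (X.e i b) ↔ x (X.e j b))) →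
      ∀ w w', (x w ↔ x w')) (x y : B ⊕ W) : Relation.EqvGen (ME X μ) x y := by
  refine conn_of_closed X μ hinj (fun S T hcl hne b => ?_) x y
  obtain ⟨b0, hb0⟩ := hne
  have h1 := h (fun w => w ∈ T) (fun b i j hi hj => (hcl b i hi).symm.trans (hcl b j hj))
    (X.e (μ b0 + 1) b0) (X.e (μ b + 1) b)
  exact (hcl b _ (fne1 _)).2 (h1.1 ((hcl b0 _ (fne1 _)).1 hb0))

theorem ham_of_white [Finite B] {V : Type*} [Fintype V] [DecidableEq V]
    {G : SimpleGraph V} (X : Web B W) (φ : X.graph ≃g G)
    (hN : ∃ b b' : B, b ≠ b') (μ : B → Fin 3)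
    (hinj : Function.Injective fun b => X.e (μ b) b)
    (h : ∀ x : W → Prop, (∀ b i j, i ≠ μ b → j ≠ μ b → (x (X.e i b) ↔ x (X.e j b))) →
      ∀ w w', (x w ↔ x w')) : G.IsHamiltonian :=
  ham_of_matching_iso X φ hN μ hinj (conn_of_white X μ hinj h)

theorem ham_of_closed [Finite B] {V : Type*} [Fintype V] [DecidableEq V]
    {G : SimpleGraph V} (X : Web B W) (φ : X.graph ≃g G)
    (hN : ∃ b b' : B, b ≠ b') (μ : B → Fin 3)
    (hinj : Function.Injective fun b => X.e (μ b) b)
    (h : ∀ (S : Set B) (T : Set W), (∀ b j, j ≠ μ b → (b ∈ S ↔ X.e j b ∈ T)) → S.Nonempty →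
      ∀ b, b ∈ S) : G.IsHamiltonian :=
  ham_of_matching_iso X φ hN μ hinj (conn_of_closed X μ hinj h)

end Vale.Agent.P039.H940
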